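import Vale.Agent.P193.Target

/-!
# The Boone–Higman conjecture
-/

namespace Vale.Agent.P193

universe u

/-- Transfer of the conjecture to groups in an arbitrary universe. -/
theorem embeds_of_conjecture (hBH : BooneHigmanConjecture) (G : Type u) [Group G] (n : ℕ)
    (g : Fin n → G) (hg : Subgroup.closure (Set.range g) = ⊤)
    (hd : ComputablePred fun w : List (Fin n × Bool) =>
      (w.map fun a => if a.2 then g a.1 else (g a.1)⁻¹).prod = 1) :
    ∃ (H : Type) (_ : Group H), Group.IsFinitelyPresented H ∧ IsSimpleGroup H ∧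
      ∃ f : G →* H, Function.Injective f := by
  let φ : FreeGroup (Fin n) →* G := FreeGroup.lift g
  have hφ : Function.Surjective φ := by
    rw [← MonoidHom.range_eq_top, eq_top_iff, ← hg, Subgroup.closure_le]
    rintro _ ⟨i, rfl⟩
    exact ⟨FreeGroup.of i, FreeGroup.lift_apply_of⟩
  let e : FreeGroup (Fin n) ⧸ φ.ker ≃* G := QuotientGroup.quotientKerEquivOfSurjective φ hφ
  have hcl : Subgroup.closure (Set.range fun i => e.symm (g i)) = ⊤ := by
    have h : (Set.range fun i => e.symm (g i)) = e.symm.toMonoidHom '' Set.range g := by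
      ext x; simp [Set.mem_image, eq_comm]
    rw [h, ← MonoidHom.map_closure, hg, ← MonoidHom.range_eq_map, MonoidHom.range_eq_top]
    exact e.symm.surjective
  have heval : ∀ w : List (Fin n × Bool), evalWord (fun i => e.symm (g i)) w =
      e.symm ((w.map fun a => if a.2 then g a.1 else (g a.1)⁻¹).prod) := by
    intro w
    rw [evalWord, map_list_prod, List.map_map]
    congr 1
    refine List.map_congr_left fun a _ => ?_
    simp only [Function.comp_apply]
    split <;> simp
  obtain ⟨H, hH, hfp, hs, f, hf⟩ := hBH (FreeGroup (Fin n) ⧸ φ.ker)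
    ⟨n, fun i => e.symm (g i), hcl, by
      refine ComputablePred.of_eq hd fun w => ?_
      rw [heval, map_eq_one_iff e.symm e.symm.injective]⟩
  exact ⟨H, hH, hfp, hs, f.comp e.symm.toMonoidHom, hf.comp e.symm.injective⟩

end Vale.Agent.P193
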