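import Mathlib

/-!
# Finite presentations of algebras over the field with two elements
-/

namespace Vale.Agent.P193.Assembly

open scoped TensorProduct

/-- A finite presentation of an algebra over `ZMod 2`. -/
def IsFPAlg (R : Type*) [Ring R] [Algebra (ZMod 2) R] : Prop :=
  ∃ (X : Type) (_ : Finite X) (π : FreeAlgebra (ZMod 2) X →ₐ[ZMod 2] R)
    (F : Set (FreeAlgebra (ZMod 2) X)), Function.Surjective π ∧ F.Finite ∧
      (∀ a, π a = 0 → a ∈ TwoSidedIdeal.span F) ∧ ∀ f ∈ F, π f = 0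

/-- A finite presentation of a ring. -/
def IsFPRing (R : Type*) [Ring R] : Prop :=
  ∃ (X : Type) (_ : Finite X) (π : FreeAlgebra ℤ X →+* R)
    (F : Set (FreeAlgebra ℤ X)), Function.Surjective π ∧ F.Finite ∧
      (∀ a, π a = 0 → a ∈ TwoSidedIdeal.span F) ∧ ∀ f ∈ F, π f = 0

/-- The reduction of the free ring modulo two. -/
noncomputable def reduceTwo (X : Type) : FreeAlgebra ℤ X →+* FreeAlgebra (ZMod 2) X :=
  (FreeAlgebra.lift ℤ (FreeAlgebra.ι (ZMod 2))).toRingHom

theorem reduceTwo_ι {X : Type} (x : X) :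
    reduceTwo X (FreeAlgebra.ι ℤ x) = FreeAlgebra.ι (ZMod 2) x := by
  simp [reduceTwo]

theorem reduceTwo_surjective (X : Type) : Function.Surjective (reduceTwo X) := by
  intro b
  induction b using FreeAlgebra.induction with
  | grade0 c =>
    obtain ⟨z, rfl⟩ := ZMod.intCast_surjective c
    exact ⟨algebraMap ℤ _ z, by simp⟩
  | grade1 x => exact ⟨_, reduceTwo_ι x⟩
  | mul a b ha hb =>
    obtain ⟨u, rfl⟩ := ha
    obtain ⟨v, rfl⟩ := hb
    exact ⟨u * v, map_mul _ _ _⟩
  | add a b ha hb =>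
    obtain ⟨u, rfl⟩ := ha
    obtain ⟨v, rfl⟩ := hb
    exact ⟨u + v, map_add _ _ _⟩

theorem quot_eq_zero_iff {A : Type*} [Ring A] (I : TwoSidedIdeal A) (a : A) :
    (a : I.ringCon.Quotient) = 0 ↔ a ∈ I := by
  rw [TwoSidedIdeal.mem_iff, ← RingCon.eq, RingCon.coe_zero]

/-- A finitely presented algebra over `ZMod 2` is a finitely presented ring. -/
theorem IsFPAlg.isFPRing {R : Type*} [Ring R] [Algebra (ZMod 2) R] (h : IsFPAlg R) :
    IsFPRing R := by
  classical
  obtain ⟨X, hX, π, F, hπ, hF, hker, hF0⟩ := h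
  let π' : FreeAlgebra ℤ X →+* R := π.toRingHom.comp (reduceTwo X)
  let lf : FreeAlgebra (ZMod 2) X → FreeAlgebra ℤ X := Function.surjInv (reduceTwo_surjective X)
  have hlf : ∀ b, reduceTwo X (lf b) = b := Function.surjInv_eq (reduceTwo_surjective X)
  have h2R : (2 : R) = 0 := by
    have := congrArg (algebraMap (ZMod 2) R) (show (2 : ZMod 2) = 0 from rfl)
    simpa only [map_ofNat, map_zero] using this
  refine ⟨X, hX, π', insert 2 (lf '' F), fun r => ?_, (hF.image lf).insert 2, ?_, ?_⟩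
  · obtain ⟨b, rfl⟩ := hπ r
    exact ⟨lf b, by simp [π', hlf]⟩
  · set I := TwoSidedIdeal.span (insert 2 (lf '' F)) with hI
    let mk : FreeAlgebra ℤ X →+* I.ringCon.Quotient := I.ringCon.mk'
    have hmk : ∀ a, mk a = 0 ↔ a ∈ I := quot_eq_zero_iff I
    have h2 : mk 2 = 0 := (hmk 2).2 (TwoSidedIdeal.subset_span (Set.mem_insert _ _))
    rw [map_ofNat] at h2
    have hle : RingHom.ker (Int.castRingHom (ZMod 2)) ≤
        RingHom.ker (Int.castRingHom I.ringCon.Quotient) := by
      intro z hz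
      rw [RingHom.mem_ker, Int.coe_castRingHom, ZMod.intCast_zmod_eq_zero_iff_dvd] at hz
      obtain ⟨w, rfl⟩ := hz
      rw [RingHom.mem_ker, map_mul, map_natCast]
      simp [h2]
    let φ : ZMod 2 →+* I.ringCon.Quotient :=
      RingHom.liftOfSurjective (Int.castRingHom (ZMod 2)) ZMod.intCast_surjective
        ⟨Int.castRingHom _, hle⟩
    have hφ : ∀ z : ℤ, φ z = z := by
      intro z
      have := RingHom.liftOfRightInverse_comp_apply (Int.castRingHom (ZMod 2)) _
        (Function.rightInverse_surjInv ZMod.intCast_surjective)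
        ⟨Int.castRingHom I.ringCon.Quotient, hle⟩ z
      simpa only [φ, RingHom.liftOfSurjective, Int.coe_castRingHom] using this
    letI : Algebra (ZMod 2) I.ringCon.Quotient := φ.toAlgebra' fun c x => by
      obtain ⟨z, rfl⟩ := ZMod.intCast_surjective c
      rw [hφ]
      exact (Int.cast_commute z x).eq
    let back : FreeAlgebra (ZMod 2) X →ₐ[ZMod 2] I.ringCon.Quotient :=
      FreeAlgebra.lift (ZMod 2) fun x => mk (FreeAlgebra.ι ℤ x)
    have hback : ∀ a, back (reduceTwo X a) = mk a := by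
      intro a
      induction a using FreeAlgebra.induction with
      | grade0 z => simp
      | grade1 x => rw [reduceTwo_ι]; simp [back]
      | mul a b ha hb => rw [map_mul, map_mul, map_mul, ha, hb]
      | add a b ha hb => rw [map_add, map_add, map_add, ha, hb]
    let K : TwoSidedIdeal (FreeAlgebra (ZMod 2) X) := TwoSidedIdeal.ker back.toRingHom
    have hK : TwoSidedIdeal.span F ≤ K := TwoSidedIdeal.span_le.2 fun f hf => by
      show f ∈ K
      rw [TwoSidedIdeal.mem_ker]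
      show back f = 0
      rw [← hlf f, hback, hmk]
      exact TwoSidedIdeal.subset_span (Set.mem_insert_of_mem _ ⟨f, hf, rfl⟩)
    intro a ha
    have h1 := hK (hker (reduceTwo X a) ha)
    rw [TwoSidedIdeal.mem_ker] at h1
    rw [← hmk, ← hback]
    exact h1
  · rintro f (rfl | ⟨g, hg, rfl⟩)
    · simp [map_ofNat, h2R]
    · simp [π', hlf, hF0 g hg]

/-- The tensor product of two finitely presented algebras is finitely presented. -/
theorem IsFPAlg.tensor {A B : Type*} [Ring A] [Ring B] [Algebra (ZMod 2) A] [Algebra (ZMod 2) B]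
    (hA : IsFPAlg A) (hB : IsFPAlg B) : IsFPAlg (A ⊗[ZMod 2] B) := by
  classical
  obtain ⟨X, hX, π₁, F₁, hπ₁, hF₁, hk₁, h₁⟩ := hA
  obtain ⟨Y, hY, π₂, F₂, hπ₂, hF₂, hk₂, h₂⟩ := hB
  let j₁ : FreeAlgebra (ZMod 2) X →ₐ[ZMod 2] FreeAlgebra (ZMod 2) (X ⊕ Y) :=
    FreeAlgebra.lift _ fun x => FreeAlgebra.ι _ (Sum.inl x)
  let j₂ : FreeAlgebra (ZMod 2) Y →ₐ[ZMod 2] FreeAlgebra (ZMod 2) (X ⊕ Y) :=
    FreeAlgebra.lift _ fun x => FreeAlgebra.ι _ (Sum.inr x)
  let π : FreeAlgebra (ZMod 2) (X ⊕ Y) →ₐ[ZMod 2] A ⊗[ZMod 2] B :=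
    FreeAlgebra.lift _ (Sum.elim (fun x => π₁ (FreeAlgebra.ι _ x) ⊗ₜ[ZMod 2] 1)
      fun y => 1 ⊗ₜ[ZMod 2] π₂ (FreeAlgebra.ι _ y))
  have hπj₁ : π.comp j₁ = Algebra.TensorProduct.includeLeft.comp π₁ := by
    refine FreeAlgebra.hom_ext (funext fun x => ?_)
    simp [π, j₁]
  have hπj₂ : π.comp j₂ = Algebra.TensorProduct.includeRight.comp π₂ := by
    refine FreeAlgebra.hom_ext (funext fun x => ?_)
    simp [π, j₂]
  let cm : X × Y → FreeAlgebra (ZMod 2) (X ⊕ Y) := fun p =>
    FreeAlgebra.ι _ (Sum.inl p.1) * FreeAlgebra.ι _ (Sum.inr p.2) -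
      FreeAlgebra.ι _ (Sum.inr p.2) * FreeAlgebra.ι _ (Sum.inl p.1)
  refine ⟨X ⊕ Y, inferInstance, π, j₁ '' F₁ ∪ j₂ '' F₂ ∪ Set.range cm, fun t => ?_,
    ((hF₁.image _).union (hF₂.image _)).union (Set.finite_range _), ?_, ?_⟩
  · induction t using TensorProduct.induction_on with
    | zero => exact ⟨0, map_zero _⟩
    | tmul a b =>
      obtain ⟨u, rfl⟩ := hπ₁ a
      obtain ⟨v, rfl⟩ := hπ₂ b
      refine ⟨j₁ u * j₂ v, ?_⟩
      rw [map_mul, ← AlgHom.comp_apply, ← AlgHom.comp_apply, hπj₁, hπj₂]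
      simp
    | add s t hs ht =>
      obtain ⟨u, rfl⟩ := hs
      obtain ⟨v, rfl⟩ := ht
      exact ⟨u + v, map_add _ _ _⟩
  · set I := TwoSidedIdeal.span (j₁ '' F₁ ∪ j₂ '' F₂ ∪ Set.range cm) with hI
    let mk : FreeAlgebra (ZMod 2) (X ⊕ Y) →ₐ[ZMod 2] I.ringCon.Quotient :=
      RingCon.mkₐ (ZMod 2) I.ringCon
    have hmk : ∀ a, mk a = 0 ↔ a ∈ I := quot_eq_zero_iff I
    have hker : ∀ {Z : Type} (G : Set (FreeAlgebra (ZMod 2) Z))
        (j : FreeAlgebra (ZMod 2) Z →ₐ[ZMod 2] FreeAlgebra (ZMod 2) (X ⊕ Y)),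
        (∀ g ∈ G, j g ∈ I) → ∀ a ∈ TwoSidedIdeal.span G, mk (j a) = 0 := by
      intro Z G j hG a ha
      have hle : TwoSidedIdeal.span G ≤ TwoSidedIdeal.ker ((mk.comp j).toRingHom) :=
        TwoSidedIdeal.span_le.2 fun g hg => by
          show g ∈ TwoSidedIdeal.ker _
          rw [TwoSidedIdeal.mem_ker]
          exact (hmk _).2 (hG g hg)
      have := hle ha
      rwa [TwoSidedIdeal.mem_ker] at this
    have k₁ := hker F₁ j₁ fun g hg => TwoSidedIdeal.subset_span (Or.inl (Or.inl ⟨g, hg, rfl⟩))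
    have k₂ := hker F₂ j₂ fun g hg => TwoSidedIdeal.subset_span (Or.inl (Or.inr ⟨g, hg, rfl⟩))
    have fac₁ : ∀ u v, π₁ u = π₁ v → mk (j₁ u) = mk (j₁ v) := by
      intro u v huv
      rw [← sub_eq_zero, ← map_sub, ← map_sub]
      exact k₁ _ (hk₁ _ (by rw [map_sub, huv, sub_self]))
    have fac₂ : ∀ u v, π₂ u = π₂ v → mk (j₂ u) = mk (j₂ v) := by
      intro u v huv
      rw [← sub_eq_zero, ← map_sub, ← map_sub]
      exact k₂ _ (hk₂ _ (by rw [map_sub, huv, sub_self]))
    let s₁ := Function.surjInv hπ₁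
    let s₂ := Function.surjInv hπ₂
    have hs₁ : ∀ a, π₁ (s₁ a) = a := Function.surjInv_eq hπ₁
    have hs₂ : ∀ a, π₂ (s₂ a) = a := Function.surjInv_eq hπ₂
    let f : A →ₐ[ZMod 2] I.ringCon.Quotient :=
      { toFun := fun a => mk (j₁ (s₁ a))
        map_one' := by rw [fac₁ (s₁ 1) 1 (by rw [hs₁, map_one]), map_one, map_one]
        map_mul' := fun a b => by
          rw [fac₁ (s₁ (a * b)) (s₁ a * s₁ b) (by rw [hs₁, map_mul, hs₁, hs₁]), map_mul, map_mul]
        map_zero' := by rw [fac₁ (s₁ 0) 0 (by rw [hs₁, map_zero]), map_zero, map_zero]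
        map_add' := fun a b => by
          rw [fac₁ (s₁ (a + b)) (s₁ a + s₁ b) (by rw [hs₁, map_add, hs₁, hs₁]), map_add, map_add]
        commutes' := fun c => by
          rw [fac₁ (s₁ (algebraMap _ _ c)) (algebraMap _ _ c) (by rw [hs₁, AlgHom.commutes]),
            AlgHom.commutes, AlgHom.commutes] }
    let g : B →ₐ[ZMod 2] I.ringCon.Quotient :=
      { toFun := fun a => mk (j₂ (s₂ a))
        map_one' := by rw [fac₂ (s₂ 1) 1 (by rw [hs₂, map_one]), map_one, map_one]
        map_mul' := fun a b => by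
          rw [fac₂ (s₂ (a * b)) (s₂ a * s₂ b) (by rw [hs₂, map_mul, hs₂, hs₂]), map_mul, map_mul]
        map_zero' := by rw [fac₂ (s₂ 0) 0 (by rw [hs₂, map_zero]), map_zero, map_zero]
        map_add' := fun a b => by
          rw [fac₂ (s₂ (a + b)) (s₂ a + s₂ b) (by rw [hs₂, map_add, hs₂, hs₂]), map_add, map_add]
        commutes' := fun c => by
          rw [fac₂ (s₂ (algebraMap _ _ c)) (algebraMap _ _ c) (by rw [hs₂, AlgHom.commutes]),
            AlgHom.commutes, AlgHom.commutes] }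
    have hgen : ∀ x v, Commute (mk (j₁ (FreeAlgebra.ι _ x))) (mk (j₂ v)) := by
      intro x v
      induction v using FreeAlgebra.induction with
      | grade0 c => rw [AlgHom.commutes, AlgHom.commutes]; exact Algebra.commutes' c _ |>.symm
      | grade1 y =>
        have := (hmk (cm (x, y))).2 (TwoSidedIdeal.subset_span (Or.inr ⟨_, rfl⟩))
        simp only [cm, map_sub, map_mul, sub_eq_zero] at this
        simpa [j₁, j₂, Commute, SemiconjBy] using this
      | mul a b ha hb => rw [map_mul, map_mul]; exact ha.mul_right hb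
      | add a b ha hb => rw [map_add, map_add]; exact ha.add_right hb
    have hcomm : ∀ a b, Commute (f a) (g b) := by
      intro a b
      show Commute (mk (j₁ (s₁ a))) (mk (j₂ (s₂ b)))
      generalize s₁ a = u, s₂ b = v
      induction u using FreeAlgebra.induction with
      | grade0 c => rw [AlgHom.commutes, AlgHom.commutes]; exact Algebra.commutes c _
      | grade1 x => exact hgen x v
      | mul a b ha hb => rw [map_mul, map_mul]; exact ha.mul_left hb
      | add a b ha hb => rw [map_add, map_add]; exact ha.add_left hb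
    let back := Algebra.TensorProduct.lift f g hcomm
    have hback : back.comp π = mk := by
      refine FreeAlgebra.hom_ext (funext fun z => ?_)
      rcases z with x | y
      · show back (π (FreeAlgebra.ι _ (Sum.inl x))) = _
        simp only [π, FreeAlgebra.lift_ι_apply, Sum.elim_inl, back,
          Algebra.TensorProduct.lift_tmul, map_one, mul_one]
        show mk (j₁ (s₁ _)) = _
        rw [fac₁ _ (FreeAlgebra.ι _ x) (hs₁ _)]
        simp [j₁]
      · show back (π (FreeAlgebra.ι _ (Sum.inr y))) = _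
        simp only [π, FreeAlgebra.lift_ι_apply, Sum.elim_inr, back,
          Algebra.TensorProduct.lift_tmul, map_one, one_mul]
        show mk (j₂ (s₂ _)) = _
        rw [fac₂ _ (FreeAlgebra.ι _ y) (hs₂ _)]
        simp [j₂]
    intro a ha
    rw [← hmk, ← hback, AlgHom.comp_apply, ha, map_zero]
  · rintro f ((⟨g, hg, rfl⟩ | ⟨g, hg, rfl⟩) | ⟨⟨x, y⟩, rfl⟩)
    · rw [← AlgHom.comp_apply, hπj₁]
      simp [h₁ g hg]
    · rw [← AlgHom.comp_apply, hπj₂]
      simp [h₂ g hg]
    · simp [π, cm]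

end Vale.Agent.P193.Assembly
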