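import Vale.Agent.P193.Steinberg.Main
import Vale.Agent.P193.Assembly.Presentations

/-!
# From a ring with few properties to an embedding into a finitely presented simple group
-/

namespace Vale.Agent.P193.Assembly

open Vale.Agent.P193.Steinberg

/-- `K` embeds in some finitely presented simple group. -/
def EmbedsInFPSimple (K : Type*) [Group K] : Prop :=
  ∃ (H : Type) (_ : Group H), Group.IsFinitelyPresented H ∧ IsSimpleGroup H ∧
    ∃ f : K →* H, Function.Injective f

theorem EmbedsInFPSimple.of_injective {K L : Type*} [Group K] [Group L] (i : K →* L)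
    (hi : Function.Injective i) (h : EmbedsInFPSimple L) : EmbedsInFPSimple K := by
  obtain ⟨H, hH, hfp, hs, f, hf⟩ := h
  exact ⟨H, hH, hfp, hs, f.comp i, hf.comp hi⟩

/-- The criterion: a finitely presented ring with trivial centre, the purely infinite property
and trivial unstable `K₁`, `K₂` puts every group of units into a finitely presented simple
group. -/
theorem embedsInFPSimple_of_ring {K : Type*} [Group K] {R : Type} [Ring R] (hfp : IsFPRing R)
    {n : ℕ} (hn : 5 ≤ n) (hinj : Function.Injective (toGL : St n R →* GLn n R))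
    (hGL : ∀ g : GLn n R, g ∈ elemGroup n R)
    (hPI : ∀ a : R, a ≠ 0 → ∃ x y, x * a * y = 1)
    (hzd : ∃ s t : R, s ≠ 0 ∧ t ≠ 0 ∧ t * s = 0)
    (hcenter : ∀ z : R, (∀ r, z * r = r * z) → z = 0 ∨ z = 1)
    (ι : K →* Rˣ) (hι : Function.Injective ι) : EmbedsInFPSimple K := by
  obtain ⟨X, hX, π, F, hπ, hF, hker, hF0⟩ := hfp
  obtain ⟨h1, h2⟩ :=
    elemGroup_isFinitelyPresented_isSimple hn π hπ hF hker hF0 hinj hPI hzd hcenter
  obtain ⟨i, -, -, -, -⟩ :=
    exists_index hn ⟨0, by omega⟩ ⟨0, by omega⟩ ⟨0, by omega⟩ ⟨0, by omega⟩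
  refine ⟨elemGroup n R, inferInstance, h1, h2,
    ((diagUnit i).comp ι).codRestrict (elemGroup n R) (fun k => hGL _), fun a b h => ?_⟩
  exact hι (diagUnit_injective i (congrArg Subtype.val h))

end Vale.Agent.P193.Assembly
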