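import Mathlib

/-!
# Decidable word problem: the definition and two reductions
-/

namespace Vale.Agent.P193.Assembly

/-- The group is generated by a finite family and some computable function decides which words
in the generators and their inverses are trivial. -/
def HasDecidableWP (G : Type*) [Group G] : Prop :=
  ∃ (k : ℕ) (g : Fin k → G), Subgroup.closure (Set.range g) = ⊤ ∧
    ∃ d : List (Fin k × Bool) → Bool, Computable d ∧
      ∀ w, d w = true ↔ (w.map fun p => if p.2 then g p.1 else (g p.1)⁻¹).prod = 1

/-- Finitely many monoid generators with a computable test for trivial words. -/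
def HasMonoidWP (G : Type*) [Group G] : Prop :=
  ∃ (k : ℕ) (g : Fin k → G), Submonoid.closure (Set.range g) = ⊤ ∧
    ∃ d : List (Fin k) → Bool, Computable d ∧ ∀ w, d w = true ↔ (w.map g).prod = 1

theorem HasDecidableWP.hasMonoidWP {G : Type*} [Group G] (h : HasDecidableWP G) :
    HasMonoidWP G := by
  obtain ⟨k, g, hg, d, hd, hdw⟩ := h
  let c : Fin (k + k) → Fin k × Bool := fun a =>
    Sum.elim (fun i => (i, true)) (fun i => (i, false)) (finSumFinEquiv.symm a)
  let g' : Fin (k + k) → G := fun a => if (c a).2 then g (c a).1 else (g (c a).1)⁻¹
  have hmap : Computable fun w : List (Fin (k + k)) => w.map c :=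
    (Primrec.list_map Primrec.id ((Primrec.dom_finite c).comp Primrec.snd).to₂).to_comp
  refine ⟨k + k, g', ?_, fun w => d (w.map c), hd.comp hmap, fun w => ?_⟩
  · rw [eq_top_iff, ← Subgroup.top_toSubmonoid, ← hg, Subgroup.closure_toSubmonoid]
    refine Submonoid.closure_mono (Set.union_subset ?_ ?_)
    · rintro _ ⟨i, rfl⟩
      exact ⟨finSumFinEquiv (Sum.inl i), by simp [g', c]⟩
    · intro x hx
      obtain ⟨i, hi⟩ := Set.mem_inv.1 hx
      refine ⟨finSumFinEquiv (Sum.inr i), ?_⟩
      simp only [g', c, Equiv.symm_apply_apply, Sum.elim_inr]
      simp [hi]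
  · rw [hdw, List.map_map]
    rfl

/-- Counting the letters sent to `some` by a partial map. -/
def pickList {α β : Type*} (f : α → List β) (w : List α) : List β := (w.map f).flatten

theorem primrec_pickList {α β : Type*} [Primcodable α] [Primcodable β] [Finite α] (f : α → List β) :
    Primrec (pickList f) :=
  Primrec.list_flatten.comp (Primrec.list_map Primrec.id ((Primrec.dom_finite f).comp Primrec.snd).to₂)

/-- Multiplying by an infinite cyclic group keeps a monoid word problem decidable. -/
theorem HasMonoidWP.prod_int {G : Type*} [Group G] (h : HasMonoidWP G) :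
    HasMonoidWP (G × Multiplicative ℤ) := by
  obtain ⟨k, g, hg, d, hd, hdw⟩ := h
  let e : Fin (k + 2) → Fin k ⊕ Fin 2 := finSumFinEquiv.symm
  let gg : Fin k ⊕ Fin 2 → G × Multiplicative ℤ :=
    Sum.elim (fun i => (g i, 1)) fun b => (1, Multiplicative.ofAdd (if b = 0 then 1 else -1))
  let pick : Fin (k + 2) → List (Fin k) := fun a => Sum.elim (fun i => [i]) (fun _ => []) (e a)
  let up : Fin (k + 2) → List Unit := fun a =>
    Sum.elim (fun _ => []) (fun b => if b = 0 then [()] else []) (e a)
  let down : Fin (k + 2) → List Unit := fun a =>
    Sum.elim (fun _ => []) (fun b => if b = 0 then [] else [()]) (e a)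
  have hval : ∀ w : List (Fin (k + 2)), (w.map fun a => gg (e a)).prod =
      (((pickList pick w).map g).prod,
        Multiplicative.ofAdd (((pickList up w).length : ℤ) - (pickList down w).length)) := by
    intro w
    induction w with
    | nil => simp [pickList]; rfl
    | cons a w ih =>
      have hcons : ∀ {β : Type} (f : Fin (k + 2) → List β),
          pickList f (a :: w) = f a ++ pickList f w := fun f => List.flatten_cons
      rw [List.map_cons, List.prod_cons, ih, hcons pick, hcons up, hcons down, List.map_append,
        List.prod_append, List.length_append, List.length_append]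
      rcases hea : e a with i | b
      · simp [pick, up, down, gg, hea]
      · have hp : pick a = [] := by simp [pick, hea]
        rcases (show b = 0 ∨ b = 1 by omega) with rfl | rfl
        · have hu : up a = [()] := by simp [up, hea]
          have hd : down a = [] := by simp [down, hea]
          simp only [hp, hu, hd, gg, Sum.elim_inr, List.map_nil, List.prod_nil, one_mul,
            List.length_cons, List.length_nil, Prod.mk_mul_mk, if_true, ← ofAdd_add]
          congr 2
          omega
        · have hu : up a = [] := by simp [up, hea]
          have hd : down a = [()] := by simp [down, hea]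
          simp only [hp, hu, hd, gg, Sum.elim_inr, List.map_nil, List.prod_nil, one_mul,
            List.length_cons, List.length_nil, Prod.mk_mul_mk, if_neg (show ¬(1 : Fin 2) = 0 by decide),
            ← ofAdd_add]
          congr 2
          omega
  refine ⟨k + 2, fun a => gg (e a), ?_,
    fun w => d (pickList pick w) && ((pickList up w).length == (pickList down w).length),
    ?_, fun w => ?_⟩
  · rw [eq_top_iff]
    rintro ⟨x, z⟩ -
    have hmem : ∀ s, gg s ∈ Submonoid.closure (Set.range fun a => gg (e a)) := fun s =>
      Submonoid.subset_closure ⟨finSumFinEquiv s, by simp [e]⟩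
    have hx : (x, (1 : Multiplicative ℤ)) ∈ Submonoid.closure (Set.range fun a => gg (e a)) := by
      have hle : Submonoid.closure (Set.range g) ≤
          (Submonoid.closure (Set.range fun a => gg (e a))).comap
            (MonoidHom.inl G (Multiplicative ℤ)) := by
        rw [Submonoid.closure_le]
        rintro _ ⟨i, rfl⟩
        exact hmem (Sum.inl i)
      exact hle (hg ▸ Submonoid.mem_top x)
    have hz : ((1 : G), z) ∈ Submonoid.closure (Set.range fun a => gg (e a)) := by
      have hp : ((1 : G), Multiplicative.ofAdd (1 : ℤ)) ∈ Submonoid.closure (Set.range fun a => gg (e a)) := by simpa [gg] using hmem (Sum.inr 0)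
      have hm : ((1 : G), Multiplicative.ofAdd (-1 : ℤ)) ∈ Submonoid.closure (Set.range fun a => gg (e a)) := by simpa [gg] using hmem (Sum.inr 1)
      obtain ⟨m, rfl⟩ := Multiplicative.ofAdd.surjective z
      rcases Int.eq_nat_or_neg m with ⟨j, rfl | rfl⟩
      · have := pow_mem hp j
        simpa [Prod.pow_mk, ← ofAdd_nsmul] using this
      · have := pow_mem hm j
        simpa [Prod.pow_mk, ← ofAdd_nsmul] using this
    simpa using mul_mem hx hz
  · exact Primrec.and.to_comp.comp (hd.comp (primrec_pickList pick).to_comp)
      (Primrec.beq.comp (Primrec.list_length.comp (primrec_pickList up))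
        (Primrec.list_length.comp (primrec_pickList down))).to_comp
  · rw [Bool.and_eq_true, hdw, beq_iff_eq, hval, Prod.mk_eq_one, ofAdd_eq_one, sub_eq_zero,
      Nat.cast_inj]

/-- It suffices to treat infinite groups given by monoid generators. -/
theorem reduce_to_infinite {P : ∀ (K : Type) [Group K], Prop}
    (hP : ∀ (K L : Type) [Group K] [Group L] (i : K →* L), Function.Injective i → P L → P K)
    (h : ∀ (K : Type) [Group K], Infinite K → HasMonoidWP K → P K)
    (K : Type) [Group K] (hK : HasDecidableWP K) : P K :=
  hP K (K × Multiplicative ℤ) (MonoidHom.inl K _) (fun _ _ e => congrArg Prod.fst e)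
    (h _ (Infinite.of_injective (fun z : Multiplicative ℤ => ((1 : K), z))
      fun _ _ e => congrArg Prod.snd e) hK.hasMonoidWP.prod_int)

end Vale.Agent.P193.Assembly
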