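import Vale.Agent.P193.Assembly
import Vale.Agent.P193.K2.Main
import Vale.Agent.P193.Alg.Compress
import Vale.Agent.P193.Alg.Construct
import Vale.Agent.P193.FlabbyLeavitt.Main
import Vale.Agent.P193.Alg.System
import Vale.Agent.P193.Alg.Repr
import Vale.Agent.P193.Pure.Tensor

/-!
# Wiring of the finished modules into the assembly
-/

namespace Vale.Agent.P193

open Vale.Agent.P193.Assembly Vale.Agent.P193.Steinberg

theorem groupHalf : GroupHalf := by
  intro R _ _ hnt F hU _
  have := hnt
  have two : (2 : R) = 0 := by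
    have h : algebraMap (ZMod 2) R 2 = algebraMap (ZMod 2) R 0 := congrArg _ rfl
    simpa only [map_ofNat, map_zero] using h
  let S : K2.Split R := ⟨F.s₀, F.s₁, F.t₀, F.t₁, F.t₀s₀, F.t₁s₁, F.t₀s₁, F.t₁s₀, F.sum_eq⟩
  refine ⟨15, by norm_num, (K2.toGL_bijective two hU S F.phi.toRingHom F.phi_eq).1, fun g => ?_⟩
  rw [K2.elemGroup_eq_top two hU S F.phi.toRingHom F.phi_eq]
  exact Subgroup.mem_top g

theorem flabby_isFPAlg : IsFPAlg FlabbyLeavitt.B :=
  IsFPAlg.of_ringQuot FlabbyLeavitt.Rel FlabbyLeavitt.finite_rel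

/-- The flasque structure of the second factor. -/
noncomputable def flabbyFlasque : Flasque FlabbyLeavitt.B where
  s₀ := FlabbyLeavitt.s0
  s₁ := FlabbyLeavitt.s1
  t₀ := FlabbyLeavitt.t0
  t₁ := FlabbyLeavitt.t1
  t₀s₀ := FlabbyLeavitt.t0_s0
  t₁s₁ := FlabbyLeavitt.t1_s1
  t₀s₁ := FlabbyLeavitt.t0_s1
  t₁s₀ := FlabbyLeavitt.t1_s0
  sum_eq := FlabbyLeavitt.sum_st
  phi := FlabbyLeavitt.psi
  phi_eq := FlabbyLeavitt.psi_eq

/-- What is left: machines, the pure half, and nontriviality and the pure system of the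
algebra. -/
theorem booneHigman_of_remaining (hM : MachineExistence) (hP : PureHalf)
    (hA : ∀ D : Setup, Nontrivial D.Alg ∧ Nonempty (PureSystem D.Alg)) : BooneHigmanConjecture :=
  booneHigman_of_modules groupHalf hP (fun G _ hd => exists_setup hM G hd)
    (fun D => ⟨(hA D).1, (hA D).2,
      have := (hA D).1
      ⟨Setup.kHom, Setup.kHom_injective⟩⟩)
    flabby_isFPAlg FlabbyLeavitt.covered flabbyFlasque

/-- The conjecture, given machines for computable sets of words. -/
theorem booneHigman_of_machineExistence (hM : MachineExistence) : BooneHigmanConjecture :=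
  booneHigman_of_remaining hM pureHalf fun D => ⟨inferInstance, ⟨D.pureSystem⟩⟩

end Vale.Agent.P193
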